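import Vale.Agent.P354D.Kick

/-!
The difference estimate for two solutions in one chart: the output of the linear analysis.
-/

open scoped ContDiff
open MeasureTheory Set Filter Topology

namespace Vale.Agent.P354DG

open Vale.Agent.P354n (R4)
open Vale.Agent.P354H (X3 pdl)
open Vale.Agent.P354C (Ix)
open Vale.Agent.P354A (Wt Sol Out)
open Vale.Agent.P354I (IsBK r2)
open Vale.Agent.P354D (sgn cpt)

/-- The increments of the difference of the component cpt b along the lines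
sgn b * x + tau = v, R < v < R + 1, are small in the square mean. -/
def DIFF : Prop :=
  ∀ (k : ℝ) (a A : ℝ → ℝ) (A0 γ : ℝ) (C : ℕ → ℝ), 0 < k → Wt k a A A0 → ContDiff ℝ ∞ a → 0 < γ →
    ∃ μ > 0, ∀ ρ ∈ Ioc 0 μ, ∀ K, IsBK k ρ C K → ∀ ε ∈ Ioc 0 μ,
      ∀ (w w' : R4 → Ix → ℝ) (T : ℝ), 0 ≤ T → Sol K w T → Sol K w' T →
        (∀ p : R4, p.1 ∈ Icc 0 T → Out k a ε 4 w p ∧ Out k a ε 4 w' p) →
        ∀ (b : Bool) (R : ℝ) (g : ℝ → ℝ), Integrable g → (∀ x, 0 ≤ g x) →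
          (∀ z, 16 ≤ r2 z → w' (0, z) = w (0, z)) →
          (∀ i (α : List (Fin 3)), α.length ≤ 4 → (0 : Fin 3) ∉ α → ∀ z : X3,
            sgn b * z.1 ≤ R + 2 →
              pdl α (fun y => w' (0, y) i - w (0, y) i) z ^ 2 ≤ g z.1 * a z.1) →
          ∃ H : ℝ → ℝ, Integrable H ∧ (∀ x, 0 ≤ H x) ∧ ∫ x, H x ≤ γ * a R * ∫ x, g x ∧
            ∀ x, sgn b * x ∈ Ioo R (R + 1) → ∀ t ∈ Icc 0 T, ∀ y : ℝ × ℝ,
              ((w' (t, x - sgn b * t, y) (cpt b) - w (t, x - sgn b * t, y) (cpt b)) -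
                (w' (0, x, y) (cpt b) - w (0, x, y) (cpt b))) ^ 2 ≤ H x

end Vale.Agent.P354DG
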