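import Vale.Agent.P354I.Core2

/-!
The difference estimate for a background with source: the exact statement.
-/

open scoped ContDiff
open MeasureTheory Set

namespace Vale.Agent.P354DG

open Vale.Agent.P354H (X3 pdl)
open Vale.Agent.P354n (R4)
open Vale.Agent.P354C (Ix)
open Vale.Agent.P354A (Wt)
open Vale.Agent.P354I (IsBS Fam2 r2)
open Vale.Agent.P354D (sgn cpt)

/-- DIFF with the source f. -/
def DIFF2 : Prop :=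
  ∀ (k : ℝ) (a A : ℝ → ℝ) (A0 : ℝ), 0 < k → Wt k a A A0 → ContDiff ℝ 1 a →
    ∃ μ0 > 0, ∃ C ≥ 0, ∀ (ρ δ1 ε1 : ℝ) (n1 : ℕ) (Cb : ℕ → ℝ) (K f : R4 → Ix → ℝ) (ε δ cb : ℝ)
      (w0 w0' : X3 → Ix → ℝ) (w w' : ℕ → R4 → Ix → ℝ) (μ : ℝ), IsBS k ρ δ1 ε1 n1 Cb K f → 0 ≤ ε →
      Fam2 k a ε δ cb K f w0 w → Fam2 k a ε δ cb K f w0' w' → ε + |Cb 5| * √ρ ≤ μ → μ ≤ μ0 →
      ∀ (b : Bool) (n : ℕ) (T x1 R M Z : ℝ), 0 ≤ T → x1 ≤ R + 2 → 0 ≤ M →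
        (∀ z : X3, sgn b * z.1 ≤ x1 ∨ 16 ≤ r2 z → w' n (0, z) = w n (0, z)) →
        (∀ i (α : List (Fin 3)), α.length ≤ 4 → (0 : Fin 3) ∉ α → ∀ z : X3, sgn b * z.1 ≤ R + 2 →
          |pdl α (fun y => w' n (0, y) i - w n (0, y) i) z| ≤ M) →
        (∀ y ∈ Icc x1 (R + 2), 1 / a y ≤ Z) →
        ∃ H : ℝ → ℝ, Continuous H ∧ HasCompactSupport H ∧ (∀ y, 0 ≤ H y) ∧
          (∀ y ≤ R + 1, ∀ θ : ℝ × ℝ, ∀ t ∈ Icc 0 T,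
            ((w' n (t, sgn b * (y - t), θ) (cpt b) - w n (t, sgn b * (y - t), θ) (cpt b)) -
              (w' n (0, sgn b * y, θ) (cpt b) - w n (0, sgn b * y, θ) (cpt b))) ^ 2 ≤ a y * H y) ∧
          ∫ y, H y ≤ C * μ ^ 2 * (M ^ 2 * Z * (R + 2 - x1))

end Vale.Agent.P354DG
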