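import Vale.Agent.P354DG.Near
import Vale.Agent.P354X.Xpt

/-!
Generic blow-up of the curvature from the kick and the difference estimate.
-/

open scoped ContDiff ENNReal
open MeasureTheory Set Filter Topology

noncomputable section

namespace Vale.Agent.P354DG

open Vale.Agent.P354n (R4 cu cv)
open Vale.Agent.P354H (X3 pdl)
open Vale.Agent.P354C (Ix SmU)
open Vale.Agent.P354A (Wt)
open Vale.Agent.P354I (Fam r2 cx cy wd glue Dset IsData pm kerr rm Th Blow BlowR BlowL GEN)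
open Vale.Agent.P354J (Bd Ud LIP)
open Vale.Agent.P354D (sgn cpt IsKick DIFF KICK)
open Vale.Agent.P354L (BU)
open Vale.Agent.P354R (kap)

/-- The part of the box at t < v < t + 1 where F is larger than exp (-c v) + ξ. -/
def Sup (c ξ : ℝ) (F : R4 → ℝ) (p : ℝ) (θ : ℝ × ℝ) (r t : ℝ) : Set R4 :=
  {x | x ∈ Bx p θ r (Ioo t (t + 1)) ∧ Real.exp (-(c * cv x)) + ξ < |F x|}

/-- F is small on most of the boxes with t ≥ N. -/
def Sm (c : ℝ) (F : R4 → ℝ) (p : ℝ) (θ : ℝ × ℝ) (r N : ℝ) : Prop :=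
  ∀ t, N ≤ t → volume (Sup c 0 F p θ r t) ≤ B0 p θ r * ENNReal.ofReal (1 / 10)

/-- Admissible boxes. -/
def Adm (p : ℝ) (θ : ℝ × ℝ) (r N : ℝ) : Prop :=
  0 < r ∧ r - p ≤ N ∧ ∀ y : ℝ × ℝ, ‖y - θ‖ < r → y.1 ^ 2 + y.2 ^ 2 ≤ 2

section
variable {c p r t : ℝ} {θ : ℝ × ℝ} {F F' : R4 → ℝ}

/-- Lower semicontinuity of the measure of the set where F is large. -/
theorem lsc {η : ℝ≥0∞} (h : ∀ ξ > 0, ∀ ζ > 0, ∃ (G : R4 → ℝ) (S : Set ℝ),
    volume S ≤ ENNReal.ofReal ζ ∧ volume (Sup c 0 G p θ r t) ≤ η ∧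
      ∀ x ∈ Bx p θ r (Ioo t (t + 1) \ S), |G x - F x| < ξ) :
    volume (Sup c 0 F p θ r t) ≤ η := by
  have h1 : ∀ ξ > 0, volume (Sup c ξ F p θ r t) ≤ η := fun ξ hξ => by
    have h2 : Tendsto (fun ζ : ℝ => η + B0 p θ r * ENNReal.ofReal ζ) (𝓝[>] 0)
        (𝓝 (η + B0 p θ r * ENNReal.ofReal 0)) :=
      tendsto_const_nhds.add (ENNReal.Tendsto.const_mul
        ((ENNReal.continuous_ofReal.tendsto 0).mono_left nhdsWithin_le_nhds)
        (Or.inr (B0_ne_top p θ r)))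
    rw [ENNReal.ofReal_zero, mul_zero, add_zero] at h2
    refine ge_of_tendsto h2 (eventually_mem_nhdsWithin.mono fun ζ hζ => ?_)
    obtain ⟨G, S, h3, h4, h5⟩ := h ξ hξ ζ hζ
    have h6 : Sup c ξ F p θ r t ⊆ Sup c 0 G p θ r t ∪ Bx p θ r S := fun x hx => by
      by_cases hS : cv x ∈ S
      · exact Or.inr ⟨hx.1.1, hS, hx.1.2.2⟩
      · have h7 := h5 x ⟨hx.1.1, ⟨hx.1.2.1, hS⟩, hx.1.2.2⟩
        have h8 := abs_sub_abs_le_abs_sub (F x) (G x)
        rw [abs_sub_comm] at h8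
        exact Or.inl ⟨hx.1, by linarith [hx.2]⟩
    refine (measure_mono h6).trans ((measure_union_le _ _).trans (add_le_add h4 ?_))
    rw [vol_Bx]
    gcongr
  have e1 : Sup c 0 F p θ r t = ⋃ n : ℕ, Sup c (1 / ((n : ℝ) + 1)) F p θ r t := by
    ext x
    simp only [mem_iUnion]
    constructor
    · intro hx
      obtain ⟨n, hn⟩ := exists_nat_one_div_lt (sub_pos.2 hx.2)
      exact ⟨n, hx.1, by linarith⟩
    · rintro ⟨n, hx⟩
      have : (0 : ℝ) < 1 / ((n : ℝ) + 1) := by positivity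
      exact ⟨hx.1, by linarith [hx.2]⟩
  have hm : Monotone fun n : ℕ => Sup c (1 / ((n : ℝ) + 1)) F p θ r t := fun n m hnm x hx =>
    ⟨hx.1, by linarith [hx.2, Nat.one_div_le_one_div (α := ℝ) hnm]⟩
  rw [e1, hm.measure_iUnion]
  exact iSup_le fun n => h1 _ (by positivity)

/-- Two functions which differ on a quarter of the box are not both small. -/
theorem two {L S : Set ℝ} {A : ℝ} (hr : 0 < r) (hc : 0 ≤ c) (hL : 1 / 3 ≤ volume L)
    (hL' : L ⊆ Ioo t (t + 1)) (hS : volume S ≤ ENNReal.ofReal (1 / 12))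
    (hA : 2 * Real.exp (-(c * t)) ≤ A) (h : ∀ x ∈ Bx p θ r (L \ S), A < |F' x - F x|)
    (h1 : volume (Sup c 0 F p θ r t) ≤ B0 p θ r * ENNReal.ofReal (1 / 10))
    (h2 : volume (Sup c 0 F' p θ r t) ≤ B0 p θ r * ENNReal.ofReal (1 / 10)) : False := by
  have h3 : Bx p θ r L ⊆ (Sup c 0 F p θ r t ∪ Sup c 0 F' p θ r t) ∪ Bx p θ r S := fun x hx => by
    by_cases h4 : cv x ∈ S
    · exact Or.inr ⟨hx.1, h4, hx.2.2⟩
    · have h5 := h x ⟨hx.1, ⟨hx.2.1, h4⟩, hx.2.2⟩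
      have h6 : x ∈ Bx p θ r (Ioo t (t + 1)) := ⟨hx.1, hL' hx.2.1, hx.2.2⟩
      have h7 : Real.exp (-(c * cv x)) ≤ Real.exp (-(c * t)) :=
        Real.exp_le_exp.2 (neg_le_neg (mul_le_mul_of_nonneg_left (hL' hx.2.1).1.le hc))
      have h8 := abs_sub (F' x) (F x)
      by_cases h9 : Real.exp (-(c * cv x)) + 0 < |F x|
      · exact Or.inl (Or.inl ⟨h6, h9⟩)
      · exact Or.inl (Or.inr ⟨h6, by linarith [not_lt.1 h9]⟩)
  have h4 : B0 p θ r * (1 / 3) ≤ B0 p θ r *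
      (ENNReal.ofReal (1 / 10) + ENNReal.ofReal (1 / 10) + ENNReal.ofReal (1 / 12)) := by
    rw [mul_add, mul_add]
    refine le_trans ?_ ((measure_mono h3).trans ((measure_union_le _ _).trans
      (add_le_add ((measure_union_le _ _).trans (add_le_add h1 h2)) ?_)))
    · rw [vol_Bx]
      gcongr
    · rw [vol_Bx]
      gcongr
  rw [ENNReal.mul_le_mul_iff_right (B0_ne_zero p θ hr) (B0_ne_top p θ r),
    ← ENNReal.ofReal_add (by norm_num) (by norm_num),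
    ← ENNReal.ofReal_add (by norm_num) (by norm_num),
    show (1 / 3 : ℝ≥0∞) = ENNReal.ofReal (1 / 3) by
      rw [ENNReal.ofReal_div_of_pos (by norm_num)]; simp,
    ENNReal.ofReal_le_ofReal_iff (by norm_num)] at h4
  norm_num at h4

/-- If BU fails, F is small in the boxes about a rational point. -/
theorem of_not_bu {G : R4 → ℝ} (hG : ∀ x, |F x| ≤ G x) (h : ¬ BU c Th G) :
    ∃ q : (ℚ × ℚ × ℚ × ℚ) × ℕ, Adm q.1.1 (q.1.2.1, q.1.2.2.1) q.1.2.2.2 q.2 ∧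
      Sm c F q.1.1 (q.1.2.1, q.1.2.2.1) q.1.2.2.2 q.2 := by
  simp only [BU, not_forall, not_exists, not_and, not_le] at h
  obtain ⟨p, θ, hθ, r, hr, h⟩ := h
  have hO : IsOpen Th := isOpen_lt (by fun_prop) continuous_const
  obtain ⟨r1, h1, h2⟩ := Metric.isOpen_iff.1 hO θ hθ
  obtain ⟨s, s0, s1⟩ := exists_rat_btwn (half_pos (lt_min hr h1))
  obtain ⟨q, hq⟩ := exists_rat_near p s0
  obtain ⟨q1, hq1⟩ := exists_rat_near θ.1 s0
  obtain ⟨q2, hq2⟩ := exists_rat_near θ.2 s0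
  have l1 := min_le_left r r1
  have l2 := min_le_right r r1
  have h3 : ∀ y : ℝ × ℝ, ‖y - ((q1 : ℝ), (q2 : ℝ))‖ < s → ‖y - θ‖ < min r r1 := fun y hy => by
    have h4 : ‖θ - ((q1 : ℝ), (q2 : ℝ))‖ < s := by
      rw [Prod.norm_def]
      exact max_lt hq1 hq2
    have h5 := norm_sub_le (y - ((q1 : ℝ), (q2 : ℝ))) (θ - ((q1 : ℝ), (q2 : ℝ)))
    rw [sub_sub_sub_cancel_right] at h5
    linarith
  obtain ⟨t0, h4⟩ := h (B0 q (q1, q2) s * ENNReal.ofReal (1 / 10))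
    (ENNReal.mul_pos (B0_ne_zero _ _ s0) (ENNReal.ofReal_pos.2 (by norm_num)).ne')
  obtain ⟨N, hN⟩ := exists_nat_ge (max t0 (s - q))
  refine ⟨((q, q1, q2, s), N), ⟨s0, (le_max_right _ _).trans hN, fun y hy =>
    le_of_lt (h2 (mem_ball_iff_norm.2 ((h3 y hy).trans_le l2)))⟩, fun t ht => ?_⟩
  refine (measure_mono fun x hx => ?_).trans (h4 t (((le_max_left _ _).trans hN).trans ht)).le
  refine ⟨?_, hx.1.2.1, (h3 _ hx.1.2.2).trans_le l1, by linarith [hx.2, hG x]⟩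
  have h5 := abs_sub (cu x - q) (p - q)
  rw [sub_sub_sub_cancel_right] at h5
  linarith [hx.1.1]

end

theorem pt_true (x : R4) : P354P.uv.symm x = pt true x :=
  Prod.ext rfl (Prod.ext (by
    show (x.2.1 - x.1) / 2 = sgn true * (x.2.1 - (x.1 + x.2.1) / 2)
    simp only [sgn, cond_true]
    ring) rfl)

theorem pt_false (x : R4) : P354P.uv.symm (P354L.sw x) = pt false x :=
  Prod.ext (by
    show (x.2.1 + x.1) / 2 = (x.1 + x.2.1) / 2
    ring) (Prod.ext (by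
    show (x.1 - x.2.1) / 2 = sgn false * (x.2.1 - (x.1 + x.2.1) / 2)
    simp only [sgn, cond_false]
    ring) rfl)

theorem kap_pos {M a : ℝ} (ha : a ≠ 0) (hM : |a| < M) : 0 < kap M a := by
  have h1 : 0 < M ^ 2 - a ^ 2 := by
    have := sq_lt_sq' (by linarith [abs_nonneg a, neg_abs_le a]) (lt_of_le_of_lt (le_abs_self a) hM)
    linarith
  have h2 := Real.sqrt_pos.2 h1
  unfold kap P354R.rp P354R.rm
  have : 0 < a ^ 2 := by positivity
  exact div_pos (by linarith) (by positivity)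

theorem small {B ζ : ℝ} (hζ : 0 < ζ) : ∃ ν > 0, ∀ x, 0 ≤ x → x ≤ ν → B * x ^ 2 ≤ ζ ∧ B * x ≤ ζ := by
  refine ⟨min 1 (ζ / (|B| + 1)), by positivity, fun x h0 h => ?_⟩
  have h1 := h.trans (min_le_left _ _)
  have h2 := (le_div_iff₀ (by positivity)).1 (h.trans (min_le_right _ _))
  have h3 := mul_le_mul_of_nonneg_right (le_abs_self B) h0
  have h4 := mul_le_mul_of_nonneg_right (le_abs_self B) (sq_nonneg x)
  have h5 : |B| * x ^ 2 ≤ |B| * x := mul_le_mul_of_nonneg_left (by nlinarith) (abs_nonneg B)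
  constructor <;> nlinarith

theorem gen_of (hD : DIFF) (hL : LIP) (hK : KICK) : GEN := by
  intro M a s w A A0 c C ha hM hs hw hws _
  have hk := kap_pos ha hM
  obtain ⟨μ0, m0, C0, c0, hD⟩ := hD _ w A A0 hk hw (hws.of_le (by exact_mod_cast le_top))
  obtain ⟨Λ, μ1, m1, hK⟩ := hK M a s (kap M a / 64) ha hM hs (by positivity)
  obtain ⟨c1, d1, hc⟩ := P354IN.bd_cy 4
  set E := Real.exp (kap M a / 8) with hE
  have E0 : 0 < E := Real.exp_pos _
  obtain ⟨μ2, m2, h2⟩ := small (B := 40 * E ^ 2 * C0 * (256 * c1 * |Λ|) ^ 2) (ζ := 1 / 12)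
    (by norm_num)
  set μ := min μ0 μ2 with hμ
  have μ0' : 0 < μ := lt_min m0 m2
  obtain ⟨μ3, m3, h3⟩ := small (B := |C 5|) (half_pos μ0')
  refine ⟨min (μ / 2) (min μ1 (μ3 ^ 2)), by positivity, fun ρ hρ K hB ε hε δ cb hδ => ?_⟩
  have r1 : ρ < μ1 := (hρ.2.trans_le (min_le_right _ _)).trans_le (min_le_left _ _)
  have r2' : √ρ ≤ μ3 := Real.sqrt_le_iff.2
    ⟨m3.le, ((hρ.2.trans_le (min_le_right _ _)).trans_le (min_le_right _ _)).le⟩
  have hI : ∀ σ, DI (kap M a) w ε δ cb (K σ) (C0 * μ ^ 2) := fun σ w0 w0' W W' f f' =>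
    hD ρ C _ ε δ cb w0 w0' W W' μ (hB.bk σ) hε.1.le f f'
      (by linarith [hε.2.trans (min_le_left _ _), (h3 _ (Real.sqrt_nonneg ρ) r2').2])
      (min_le_left _ _)
  obtain ⟨n1, η1, e1, hK⟩ := hK ρ ⟨hρ.1, r1⟩ (hB.data s) hB.lt
  obtain ⟨C1, η2, d2, e2, hL⟩ := hL _ 4 4 ⟨(hB.data s).smooth, (hB.data s).pos⟩ fun σ x y =>
    P354IN.stat (by linarith [P354IN.rm_nonneg hM, hρ.1]) σ x y
  refine ⟨max n1 6, min η1 η2, lt_min e1 e2, fun O hO hO1 hO2 => ?_⟩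
  have o1 : ∀ d : O, pm s n1 d.1.1 (kerr M a (rm M a + ρ)) < ENNReal.ofReal η1 := fun d =>
    ((P354T.pm_mono s (le_max_left _ _) _ _).trans_lt (hO1 d.1 d.2)).trans_le
      (ENNReal.ofReal_le_ofReal (min_le_left _ _))
  have o2 : ∀ (d d' : O) (ν : ℝ), 0 ≤ ν → pm s 6 d'.1.1 d.1.1 ≤ ENNReal.ofReal ν → ∀ σ (z : X3),
      ‖z.2‖ ≤ 4 → ∀ i, P354J.Tm 4 C1 (C1 * ν * P354J.wt s z) z (fun y => Ud d'.1.1 σ y i)
        (fun y => Ud d.1.1 σ y i) := fun d d' ν hν h =>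
    have o3 : ∀ d : O, pm s (4 + 2) d.1.1 (kerr M a (rm M a + ρ)) ≤ ENNReal.ofReal η2 := fun d =>
      ((P354T.pm_mono s (le_max_right _ _) _ _).trans (hO1 d.1 d.2).le).trans
        (ENNReal.ofReal_le_ofReal (min_le_right _ _))
    hL s ν _ _ (by linarith) hν ⟨d'.1.2.smooth, d'.1.2.pos⟩ ⟨d.1.2.smooth, d.1.2.pos⟩ (o3 d')
      (o3 d) h
  have sm : ∀ (d : O) σ i, ContDiff ℝ ∞ fun y => Ud d.1.1 σ y i := fun d σ i =>
    (o2 d d 0 le_rfl (by simp [P354T.pm_self]) σ 0 (by simp) i).sf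
  let Bad : Bool → Bool → ℝ → ℝ × ℝ → ℝ → ℝ → Set O := fun σ b p θ r N =>
    {d | Adm p θ r N ∧ ∃ W, Fam (kap M a) w ε δ cb (K σ) (wd (K σ) (Ud d.1.1 σ)) W ∧
      Sm (kap M a / 32) (ph (K σ) b W) p θ r N}
  have closed : ∀ σ b p θ r N, IsClosed (Bad σ b p θ r N) := by
    intro σ b p θ r N
    refine isClosed_of_closure_subset fun d hd => ?_
    obtain ⟨d0, hd0⟩ := closure_nonempty_iff.1 ⟨d, hd⟩
    obtain ⟨W, hW⟩ := hO2 d.1 d.2 σ
    refine ⟨hd0.1, W, hW, fun t ht => lsc fun ξ hξ ζ hζ => ?_⟩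
    obtain ⟨n, hn⟩ := exists_nat_ge (|p| + r + |t| + 1)
    obtain ⟨Z, hZ⟩ := (isCompact_Icc (a := -((n : ℝ) + 1)) (b := t + 2)).bddAbove_image
      (f := fun y => 1 / w y) (continuous_const.div hws.continuous fun y => (hw.pos y).ne').continuousOn
    obtain ⟨ν1, n1, k1⟩ := small (B := 1 / (ξ / 2) ^ 2 *
      (C0 * μ ^ 2 * ((256 * c1 * C1) ^ 2 * Z * (t + 2 - -((n : ℝ) + 1))))) hζ
    obtain ⟨ν2, n2, k2⟩ := small (B := C1) (half_pos hξ)
    have n0 : 0 < min ν1 ν2 := lt_min n1 n2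
    obtain ⟨d', k3, -, W', hW', k4⟩ := mem_closure_iff.1 hd _
      ((P354T.isOpen_ball' d.1 6 (ENNReal.ofReal (min ν1 ν2))).preimage continuous_subtype_val)
      (P354T.mem_ball_self' _ _ (ENNReal.ofReal_pos.2 n0))
    have k5 : ∀ i (z : X3), r2 z ≤ 16 →
        Ba 4 (fun y => Ud d'.1.1 σ y i - Ud d.1.1 σ y i) z (C1 * min ν1 ν2) :=
      fun i z hz α h1 _ =>
        ((o2 d d' _ n0.le (le_of_lt k3) σ z (P354IN.norm_le hz) i).bd α h1).trans
          (mul_le_of_le_one_right (by positivity) (P354IN.wt_le (by linarith) z))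
    obtain ⟨S, k6, k7⟩ := near (x1 := -((n : ℝ) + 1)) (a1 := 1) (hI σ) (hB.bk σ).smooth hδ d1 hc
      hW hW' (sm d σ) (sm d' σ) b n hn (hd0.1.2.1.trans ht) hd0.1.2.2
      (by linarith [neg_abs_le t, abs_nonneg p, hd0.1.1]) (by positivity)
      (fun z hz => Or.inl (cx_zero (by
        rw [← abs_sgn b]
        linarith [neg_abs_le (sgn b * z.1)])))
      (fun i z _ hz => k5 i z hz) (fun y hy => hZ ⟨y, hy, rfl⟩) (fun y _ => hw.le y) zero_le_one
      (half_pos hξ)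
    refine ⟨_, S, k6.trans (ENNReal.ofReal_le_ofReal ((le_of_eq (by ring)).trans
      (k1 _ n0.le (min_le_left _ _)).1)), k4 t ht, fun x hx => ?_⟩
    have k8 := abs_lt.1 (k7 x hx)
    have k9 := abs_le.1 ((k5 (cpt b) (sgn b * cv x, x.2.2)
      (le_trans (hd0.1.2.2 _ hx.2.2) (by norm_num))).zero.trans (k2 _ n0.le (min_le_right _ _)).2)
    exact abs_lt.2 ⟨by linarith [k8.1, k9.1], by linarith [k8.2, k9.2]⟩
  have thin : ∀ σ b p θ r N, interior (Bad σ b p θ r N) = ∅ := by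
    intro σ b p θ r N
    refine eq_empty_iff_forall_notMem.2 fun d hd => ?_
    obtain ⟨h0, W, hW, k0⟩ := interior_subset hd
    obtain ⟨m', ν, hν, k1⟩ := P354T.mem_nhds_iff_pm.1
      (hO.isOpenMap_subtype_val.image_mem_nhds (mem_interior_iff_mem_nhds.1 hd))
    obtain ⟨R, hR, A', hA, d1', i1, i2, i3⟩ := hK d.1.1 d.1.2 (o1 d) σ b m' ν
      (max N (64 * Real.log 4 / kap M a)) hν
    obtain ⟨d', ⟨-, W', hW', k0'⟩, e'⟩ := k1 ⟨d1', i1⟩ i2.le
    have e3 : d1' = d'.1.1 := (congrArg Subtype.val e').symm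
    subst e3
    have hN : N ≤ R := (le_max_left _ _).trans hR
    have A0' : 0 < A' := (Real.exp_pos _).trans_le hA
    have wR := hw.pos R
    obtain ⟨n, hn⟩ := exists_nat_ge (|p| + r + |R| + 1)
    have cmpw : ∀ x y, |y - x| ≤ 8 → w y ≤ w x * E := fun x y h =>
      (P354X.wt_le hw x y).trans (mul_le_mul_of_nonneg_left (Real.exp_le_exp.2 (by nlinarith))
        (hw.pos x).le)
    obtain ⟨S, k6, k7⟩ := near (x1 := R - 8) (a1 := w R * E) (Z := E / w R) (M := |Λ| * A')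
      (hI σ) (hB.bk σ).smooth hδ d1 hc hW hW' (sm d σ) (sm d' σ) b n hn (h0.2.1.trans hN) h0.2.2
      (by linarith) (by positivity) (fun z hz => Or.inr (i3.zero z hz))
      (fun i z h1 h2 α h3 h4 => (i3.bound i α h3 h4 z h1 h2).trans
        (mul_le_mul_of_nonneg_right (le_abs_self _) A0'.le))
      (fun y hy => by
        rw [div_le_div_iff₀ (hw.pos y) wR, one_mul, mul_comm]
        exact cmpw y R (abs_le.2 ⟨by linarith [hy.2], by linarith [hy.1]⟩))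
      (fun y hy => cmpw R y (abs_le.2 ⟨by linarith [hy.1], by linarith [hy.2]⟩)) (by positivity)
      (half_pos A0')
    refine two (A := A' / 2) h0.1 (by positivity) i3.low (fun _ h => h.1)
      (k6.trans (ENNReal.ofReal_le_ofReal ((le_of_eq ?_).trans
        (h2 μ μ0'.le (min_le_right _ _)).1))) ?_ (fun x hx => ?_) (k0 R hN) (k0' R hN)
    · field_simp
      ring
    · have k2 : Real.log 4 ≤ kap M a / 64 * R := by
        have := (div_le_iff₀ hk).1 ((le_max_right _ _).trans hR)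
        linarith
      have k3 : Real.exp (-(kap M a / 32 * R) + Real.log 4) ≤ Real.exp (-(kap M a / 64) * R) :=
        Real.exp_le_exp.2 (by linarith)
      rw [Real.exp_add, Real.exp_log (by norm_num)] at k3
      linarith
    · have k8 := k7 x ⟨hx.1, ⟨hx.2.1.1.1, hx.2.1.2⟩, hx.2.2⟩
      have k9 := hx.2.1.1.2 _ (h0.2.2 _ hx.2.2)
      have k10 := abs_sub_abs_le_abs_sub
        (Ud d'.1.1 σ (sgn b * cv x, x.2.2) (cpt b) - Ud d.1.1 σ (sgn b * cv x, x.2.2) (cpt b))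
        (ph (K σ) b W' x - ph (K σ) b W x)
      rw [abs_sub_comm _ (ph (K σ) b W' x - ph (K σ) b W x)] at k10
      linarith
  refine IsMeagre.mono (s := ⋃ q : Bool × Bool × (ℚ × ℚ × ℚ × ℚ) × ℕ, Bad q.1 q.2.1 q.2.2.1.1
    (q.2.2.1.2.1, q.2.2.1.2.2.1) q.2.2.1.2.2.2 q.2.2.2) (fun d hd => ?_)
    (isMeagre_iUnion fun q => ((closed ..).isNowhereDense_iff.2 (thin ..)).isMeagre)
  simp only [Blow, mem_ofPred_eq, not_forall, not_and_or] at hd
  obtain ⟨σ, W, hW, hd | hd⟩ := hd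
  · obtain ⟨q, h4, h5⟩ := of_not_bu (F := ph (K σ) true W) (fun x => by
      rw [pt_true]
      exact le_add_of_nonneg_right (abs_nonneg _)) hd
    exact mem_iUnion.2 ⟨(σ, true, q), h4, W, hW, h5⟩
  · obtain ⟨q, h4, h5⟩ := of_not_bu (F := ph (K σ) false W) (fun x => by
      rw [pt_false]
      exact le_add_of_nonneg_right (abs_nonneg _)) hd
    exact mem_iUnion.2 ⟨(σ, false, q), h4, W, hW, h5⟩

end Vale.Agent.P354DG
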