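import Vale.Agent.P354DG.Gen
import Vale.Agent.P354DG.Defs2
import Vale.Agent.P354T2.Main

/-!
Generic blow-up of the curvature for a background with source and different ends.
-/

open scoped ContDiff ENNReal
open MeasureTheory Set Filter Topology

noncomputable section

namespace Vale.Agent.P354DG

open Vale.Agent.P354n (R4 cu cv)
open Vale.Agent.P354H (X3 pdl pdl_zero)
open Vale.Agent.P354C (Ix SmU)
open Vale.Agent.P354I (Dat Fam2 r2 cx cy wd glue DS pm wn mix Geo Sta MIX LIP2 GLUE2 KICK2 GEN2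
  Blow2)
open Vale.Agent.P354J (Bd Ud)
open Vale.Agent.P354D (sgn cpt)

/-- The difference estimate for the background K with the constant Γ. -/
def DI2 (k : ℝ) (a : ℝ → ℝ) (ε δ cb : ℝ) (K f : R4 → Ix → ℝ) (Γ : ℝ) : Prop :=
  ∀ (w0 w0' : X3 → Ix → ℝ) (w w' : ℕ → R4 → Ix → ℝ),
    Fam2 k a ε δ cb K f w0 w → Fam2 k a ε δ cb K f w0' w' →
      ∀ (b : Bool) (n : ℕ) (T x1 R M Z : ℝ), 0 ≤ T → x1 ≤ R + 2 → 0 ≤ M →
        (∀ z : X3, sgn b * z.1 ≤ x1 ∨ 16 ≤ r2 z → w' n (0, z) = w n (0, z)) →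
        (∀ i (α : List (Fin 3)), α.length ≤ 4 → (0 : Fin 3) ∉ α → ∀ z : X3, sgn b * z.1 ≤ R + 2 →
          |pdl α (fun y => w' n (0, y) i - w n (0, y) i) z| ≤ M) →
        (∀ y ∈ Icc x1 (R + 2), 1 / a y ≤ Z) →
        ∃ H : ℝ → ℝ, Continuous H ∧ HasCompactSupport H ∧ (∀ y, 0 ≤ H y) ∧
          (∀ y ≤ R + 1, ∀ θ : ℝ × ℝ, ∀ t ∈ Icc 0 T,
            ((w' n (t, sgn b * (y - t), θ) (cpt b) - w n (t, sgn b * (y - t), θ) (cpt b)) -
              (w' n (0, sgn b * y, θ) (cpt b) - w n (0, sgn b * y, θ) (cpt b))) ^ 2 ≤ a y * H y) ∧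
          ∫ y, H y ≤ Γ * (M ^ 2 * Z * (R + 2 - x1))

/-- Outside a small set of values of v the difference of the solutions is close to the difference
of the initial values. -/
theorem near2 (hG : GLUE2) {k ε δ cb Γ c1 : ℝ} {a : ℝ → ℝ} {K f : R4 → Ix → ℝ}
    (hD : DI2 k a ε δ cb K f Γ)
    (hK : SmU K univ) (hδ : 0 < δ) (c0 : 0 ≤ c1) (hc : ∀ z : X3, ‖z.2‖ ≤ 4 → Bd 4 cy z c1)
    {u u' : X3 → Ix → ℝ} {W W' : ℕ → R4 → Ix → ℝ} (hW : Fam2 k a ε δ cb K f (wd K u) W)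
    (hW' : Fam2 k a ε δ cb K f (wd K u') W') (su : ∀ i, ContDiff ℝ ∞ fun z => u z i)
    (su' : ∀ i, ContDiff ℝ ∞ fun z => u' z i) (b : Bool) (n : ℕ) {p r R x1 M Z a1 l : ℝ}
    {θ : ℝ × ℝ} (hn : |p| + r + |R| + 1 ≤ n) (h0 : r - p ≤ R)
    (hθ : ∀ y : ℝ × ℝ, ‖y - θ‖ < r → y.1 ^ 2 + y.2 ^ 2 ≤ 2) (hx : x1 ≤ R + 2) (hM : 0 ≤ M)
    (hz : ∀ z : X3, sgn b * z.1 ≤ x1 → cx n z.1 = 0 ∨ u' z = u z)
    (hb : ∀ i (z : X3), sgn b * z.1 ≤ R + 2 → r2 z ≤ 16 → Ba 4 (fun y => u' y i - u y i) z M)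
    (hZ : ∀ y ∈ Icc x1 (R + 2), 1 / a y ≤ Z) (ha : ∀ y ∈ Ioo R (R + 1), a y ≤ a1) (a0 : 0 ≤ a1)
    (hl : 0 < l) :
    ∃ S : Set ℝ, volume S ≤
        ENNReal.ofReal (a1 / l ^ 2 * (Γ * ((256 * c1 * M) ^ 2 * Z * (R + 2 - x1)))) ∧
      ∀ x ∈ Bx p θ r (Ioo R (R + 1) \ S), |ph K b W' x - ph K b W x -
        (u' (sgn b * cv x, x.2.2) (cpt b) - u (sgn b * cv x, x.2.2) (cpt b))| < l := by
  have e1 : ∀ y i, W' n (0, y) i - W n (0, y) i = cx n y.1 * (cy y * (u' y i - u y i)) :=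
    fun y i => by
      rw [hW.init, hW'.init]
      simp only [Pi.smul_apply, smul_eq_mul, wd]
      ring
  obtain ⟨H, H1, H2, H3, H4, H5⟩ := hD _ _ _ _ hW hW' b n n x1 R (256 * c1 * M) Z
    (Nat.cast_nonneg _) hx (by positivity) (fun z h => by
      funext i
      rw [← sub_eq_zero, e1]
      rcases h with h | h
      · rcases hz z h with h | h <;> simp [h]
      · simp [P354IN.cy_zero h]) (fun i α h1 h2 z h3 => by
      simp only [e1]
      by_cases h4 : r2 z ≤ 16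
      · refine (Ba.mul 4 ((cx_sm n).comp contDiff_fst) (P354IN.cy_sm.mul ((su' i).sub (su i)))
          (ba_cx 4 n z) (Ba.mul 4 P354IN.cy_sm ((su' i).sub (su i))
            (fun β h _ => hc z (P354IN.norm_le h4) β h) (hb i z h3 h4)) α h1 h2).trans (le_of_eq ?_)
        ring
      · have h5 : (fun y : X3 => cx n y.1 * (cy y * (u' y i - u y i))) =ᶠ[𝓝 z] 0 := by
          filter_upwards [(isOpen_lt continuous_const P354IN.r2_cont).mem_nhds (not_le.1 h4)]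
            with y hy
          simp [P354IN.cy_zero (le_of_lt hy)]
        rw [P354IN.pdl_ev α h5, pdl_zero]
        simp only [Pi.zero_apply, abs_zero]
        positivity) hZ
  refine ⟨{y | l ^ 2 ≤ a1 * H y}, ?_, fun x hx => ?_⟩
  · refine (((H1.integrable_of_hasCompactSupport H2).const_mul (a1 / l ^ 2)).measure_le_integral
      (Eventually.of_forall fun y => mul_nonneg (by positivity) (H3 y)) fun y hy => ?_).trans
      (ENNReal.ofReal_le_ofReal ?_)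
    · rw [div_mul_eq_mul_div, le_div_iff₀ (by positivity), one_mul]
      exact hy
    · rw [integral_const_mul]
      exact mul_le_mul_of_nonneg_left H5 (by positivity)
  · obtain ⟨x1, ⟨x2, x3⟩, x4⟩ := hx
    have y1 := abs_lt.1 x1
    have y2 := le_abs_self p
    have y3 := neg_abs_le p
    have y4 := le_abs_self R
    have y5 := neg_abs_le R
    have y6 := x2.1
    have y7 := x2.2
    have r0 : 0 < r := (abs_nonneg _).trans_lt x1
    have t0 : 0 ≤ (cu x + cv x) / 2 := by linarith [y1.1]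
    have g1 : ∀ {w0 V}, Fam2 k a ε δ cb K f w0 V → glue V (pt b x) = V n (pt b x) := fun hV =>
      hG _ _ _ _ _ _ _ _ _ hK hV n _ (by simp only [pt]; linarith) (by
        simp only [pt]
        rw [abs_sgn, abs_of_nonneg t0]
        have : |cv x - (cu x + cv x) / 2| < n - (cu x + cv x) / 2 :=
          abs_lt.2 ⟨by linarith [y1.1, y1.2], by linarith [y1.1, y1.2]⟩
        linarith)
    have h1 := H4 (cv x) y7.le x.2.2 _ ⟨t0, by linarith [y1.2, abs_nonneg p, abs_nonneg R]⟩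
    rw [e1, P354IG.cx_one (by
      rw [abs_sgn]
      exact abs_le.2 ⟨by linarith [abs_nonneg p], by linarith [abs_nonneg p]⟩),
      cy_one (z := (sgn b * cv x, x.2.2)) (le_trans (hθ _ x4) (by norm_num)), one_mul,
      one_mul] at h1
    have h2 : a (cv x) * H (cv x) < l ^ 2 :=
      (mul_le_mul_of_nonneg_right (ha _ x2) (H3 _)).trans_lt (not_le.1 x3)
    refine abs_lt_of_sq_lt_sq (lt_of_eq_of_lt ?_ (h1.trans_lt h2)) hl.le
    simp only [ph, Pi.add_apply, g1 hW, g1 hW']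
    rw [add_sub_add_left_eq_sub]
    rfl

theorem wn_le {s : ℝ} (hs : 0 ≤ s) (m : ℕ) (F : P354I.X → ℝ) : wn 0 m F ≤ wn s m F := by
  refine Finset.sum_le_sum fun j _ => iSup₂_mono fun y _ => ENNReal.ofReal_le_ofReal ?_
  gcongr
  exact P354T.one_le_rho _

theorem geo_mono {c c' B B' : ℝ} {m : ℕ} {d : Dat} (h : Geo c B m d) (hc : c' ≤ c) (hB : B ≤ B') :
    Geo c' B' m d :=
  ⟨h.1, fun y hy v => (mul_le_mul_of_nonneg_right hc
    (Finset.sum_nonneg fun _ _ => sq_nonneg _)).trans (h.2.1 y hy v), fun i j =>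
    ⟨(h.2.2 i j).1.trans (ENNReal.ofReal_le_ofReal hB),
      (h.2.2 i j).2.trans (ENNReal.ofReal_le_ofReal hB)⟩⟩

/-- All data have bounded geometry. -/
theorem geo_all (hX : MIX) {k1 k2 : Dat} (h1 : Sta k1) (h2 : Sta k2) {s : ℝ} (hs : 0 < s)
    (d : DS (mix k1 k2) s) (m : ℕ) : ∃ c > 0, ∃ B, Geo c B m d.1 := by
  obtain ⟨c1, p1, B1, g1⟩ := hX.1 k1 m h1
  obtain ⟨c2, p2, B2, g2⟩ := hX.1 k2 m h2
  obtain ⟨B, hB⟩ := hX.2.1 m (max B1 B2)
  have g := hB _ _ _ (geo_mono g1 (min_le_left c1 c2) (le_max_left _ _))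
    (geo_mono g2 (min_le_right c1 c2) (le_max_right _ _))
  obtain ⟨c, c0, hc⟩ := P354T2.up_all hs (lt_min p1 p2) g.2.1 d
  have key : ∀ {F G : P354I.X → ℝ}, P354T.Sm F → P354T.Sm G →
      wn s m (fun y => F y - G y) ≤ pm s m d.1 (mix k1 k2) → wn 0 m G ≤ ENNReal.ofReal B →
      wn 0 m F ≤ ENNReal.ofReal ((pm s m d.1 (mix k1 k2)).toReal + |B|) := by
    intro F G hF hG a1 a2
    rw [ENNReal.ofReal_add ENNReal.toReal_nonneg (abs_nonneg _),
      ENNReal.ofReal_toReal (d.2.finite m).ne,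
      P354T.wn_congr 0 m (G := fun y => (F y - G y) + G y) fun y _ => by ring]
    exact (P354T.wn_add_le 0 m (hF.sub hG) hG).trans (add_le_add ((wn_le hs.le _ _).trans a1)
      (a2.trans (ENNReal.ofReal_le_ofReal (le_abs_self B))))
  exact ⟨c, c0, _, ⟨d.2.smooth, d.2.pos⟩, hc, fun i j =>
    ⟨key (d.2.smooth i j).1 (g.1.1 i j).1 (P354T.pm_parts le_rfl i j).1 (g.2.2 i j).1,
      key (d.2.smooth i j).2 (g.1.1 i j).2 (P354T.pm_parts le_rfl i j).2 (g.2.2 i j).2⟩⟩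

/-- The initial values depend on the data in a locally Lipschitz way. -/
theorem lip_all (hX : MIX) (hL : LIP2) {k1 k2 : Dat} (h1 : Sta k1) (h2 : Sta k2) {s : ℝ}
    (hs : 0 < s) (d : DS (mix k1 k2) s) : ∃ C η : ℝ, 0 ≤ C ∧ 0 < η ∧
      ∀ (d' : DS (mix k1 k2) s) (ν : ℝ), 0 ≤ ν → ν ≤ η → pm s 6 d'.1 d.1 ≤ ENNReal.ofReal ν →
        ∀ σ (z : X3), ‖z.2‖ ≤ 4 → ∀ i, P354J.Tm 4 C (C * ν * P354J.wt s z) z
          (fun y => Ud d'.1 σ y i) (fun y => Ud d.1 σ y i) := by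
  obtain ⟨c, c0, B, g⟩ := geo_all hX h1 h2 hs d 6
  obtain ⟨η, e0, hη⟩ := hX.2.2.1 c B 6 c0
  obtain ⟨C, c1, C0, -, hC⟩ := hL (c / 2) (B + 1) 4 4 (half_pos c0)
  exact ⟨C, η, C0, e0, fun d' ν n0 n1 h σ z hz i => (hC s ν _ _ hs.le n0
    (hη s _ _ hs.le g ⟨d'.2.smooth, d'.2.pos⟩ (h.trans (ENNReal.ofReal_le_ofReal n1)))
    (geo_mono g (half_le_self c0.le) (le_add_of_nonneg_right zero_le_one)) h σ z hz).2.2 i⟩

theorem gen2_of (hD : DIFF2) (hG : GLUE2) (hX : MIX) (hL : LIP2) (hK : KICK2) : GEN2 := by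
  intro k s w A A0 c C hk hs hw hws _
  obtain ⟨μ0, m0, C0, c0, hD⟩ := hD _ w A A0 hk hw (hws.of_le (by exact_mod_cast le_top))
  obtain ⟨Λ, hK⟩ := hK
  obtain ⟨c1, d1, hc⟩ := P354IN.bd_cy 4
  set E := Real.exp (k / 8) with hE
  have E0 : 0 < E := Real.exp_pos _
  obtain ⟨μ2, m2, h2⟩ := small (B := 40 * E ^ 2 * C0 * (256 * c1 * |Λ|) ^ 2) (ζ := 1 / 12)
    (by norm_num)
  set μ := min μ0 μ2 with hμ
  have μ0' : 0 < μ := lt_min m0 m2
  obtain ⟨μ3, m3, h3⟩ := small (B := |C 5|) (half_pos μ0')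
  refine ⟨min (μ / 2) (μ3 ^ 2), by positivity,
    fun ρ hρ ε hε δ cb δ1 ε1 n1 K f k1 k2 hδ hB s1 s2 w1 w2 O hO hO2 => ?_⟩
  have s0 : 0 < s := by linarith
  have r2' : √ρ ≤ μ3 := Real.sqrt_le_iff.2 ⟨m3.le, hρ.2.trans (min_le_right _ _)⟩
  have hI : ∀ σ, DI2 k w ε δ cb (K σ) (f σ) (C0 * μ ^ 2) := fun σ w0 w0' W W' g g' =>
    hD ρ δ1 ε1 n1 C _ _ ε δ cb w0 w0' W W' μ (hB σ) hε.1.le g g'
      (by linarith [hε.2.trans (min_le_left _ _), (h3 _ (Real.sqrt_nonneg ρ) r2').2])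
      (min_le_left _ _)
  have sm : ∀ (d : O) σ i, ContDiff ℝ ∞ fun y => Ud d.1.1 σ y i := fun d σ i => by
    obtain ⟨C1, η2, -, e2, o2⟩ := lip_all hX hL s1 s2 s0 d.1
    exact (o2 d.1 0 le_rfl e2.le (by simp [P354T.pm_self]) σ 0 (by simp) i).sf
  let Bad : Bool → Bool → ℝ → ℝ × ℝ → ℝ → ℝ → Set O := fun σ b p θ r N =>
    {d | Adm p θ r N ∧ ∃ W, Fam2 k w ε δ cb (K σ) (f σ) (wd (K σ) (Ud d.1.1 σ)) W ∧
      Sm (k / 32) (ph (K σ) b W) p θ r N}
  have closed : ∀ σ b p θ r N, IsClosed (Bad σ b p θ r N) := by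
    intro σ b p θ r N
    refine isClosed_of_closure_subset fun d hd => ?_
    obtain ⟨d0, hd0⟩ := closure_nonempty_iff.1 ⟨d, hd⟩
    obtain ⟨W, hW⟩ := hO2 d.1 d.2 σ
    obtain ⟨C1, η2, d2, e2, o2⟩ := lip_all hX hL s1 s2 s0 d.1
    refine ⟨hd0.1, W, hW, fun t ht => lsc fun ξ hξ ζ hζ => ?_⟩
    obtain ⟨n, hn⟩ := exists_nat_ge (|p| + r + |t| + 1)
    obtain ⟨Z, hZ⟩ := (isCompact_Icc (a := -((n : ℝ) + 1)) (b := t + 2)).bddAbove_image
      (f := fun y => 1 / w y) (continuous_const.div hws.continuous fun y => (hw.pos y).ne').continuousOn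
    obtain ⟨ν1, n1, j1⟩ := small (B := 1 / (ξ / 2) ^ 2 *
      (C0 * μ ^ 2 * ((256 * c1 * C1) ^ 2 * Z * (t + 2 - -((n : ℝ) + 1))))) hζ
    obtain ⟨ν3, n3, j2⟩ := small (B := C1) (half_pos hξ)
    obtain ⟨ν2, n2, l1, l2⟩ : ∃ ν > 0, ν ≤ ν3 ∧ ν ≤ η2 :=
      ⟨min ν3 η2, lt_min n3 e2, min_le_left _ _, min_le_right _ _⟩
    have n0 : 0 < min ν1 ν2 := lt_min n1 n2
    obtain ⟨d', k3, -, W', hW', k4⟩ := mem_closure_iff.1 hd _
      ((P354T2.isOpen_ball' d.1 6 (ENNReal.ofReal (min ν1 ν2))).preimage continuous_subtype_val)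
      (P354T2.mem_ball_self' _ _ (ENNReal.ofReal_pos.2 n0))
    have k5 : ∀ i (z : X3), r2 z ≤ 16 →
        Ba 4 (fun y => Ud d'.1.1 σ y i - Ud d.1.1 σ y i) z (C1 * min ν1 ν2) :=
      fun i z hz α h1 _ =>
        ((o2 d'.1 _ n0.le ((min_le_right _ _).trans l2) (le_of_lt k3) σ z (P354IN.norm_le hz) i).bd
          α h1).trans
          (mul_le_of_le_one_right (by positivity) (P354IN.wt_le (by linarith) z))
    obtain ⟨S, k6, k7⟩ := near2 hG (x1 := -((n : ℝ) + 1)) (a1 := 1) (hI σ) (hB σ).smooth.1 hδ d1 hc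
      hW hW' (sm d σ) (sm d' σ) b n hn (hd0.1.2.1.trans ht) hd0.1.2.2
      (by linarith [neg_abs_le t, abs_nonneg p, hd0.1.1]) (by positivity)
      (fun z hz => Or.inl (cx_zero (by
        rw [← abs_sgn b]
        linarith [neg_abs_le (sgn b * z.1)])))
      (fun i z _ hz => k5 i z hz) (fun y hy => hZ ⟨y, hy, rfl⟩) (fun y _ => hw.le y) zero_le_one
      (half_pos hξ)
    refine ⟨_, S, k6.trans (ENNReal.ofReal_le_ofReal ((le_of_eq (by ring)).trans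
      (j1 _ n0.le (min_le_left _ _)).1)), k4 t ht, fun x hx => ?_⟩
    have k8 := abs_lt.1 (k7 x hx)
    have k9 := abs_le.1 ((k5 (cpt b) (sgn b * cv x, x.2.2)
      (le_trans (hd0.1.2.2 _ hx.2.2) (by norm_num))).zero.trans 
        (j2 _ n0.le ((min_le_right _ _).trans l1)).2)
    exact abs_lt.2 ⟨by linarith [k8.1, k9.1], by linarith [k8.2, k9.2]⟩
  have thin : ∀ σ b p θ r N, interior (Bad σ b p θ r N) = ∅ := by
    intro σ b p θ r N
    refine eq_empty_iff_forall_notMem.2 fun d hd => ?_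
    obtain ⟨h0, W, hW, k0⟩ := interior_subset hd
    obtain ⟨m', ν, hν, j1⟩ := P354T2.mem_nhds_iff_pm.1
      (hO.isOpenMap_subtype_val.image_mem_nhds (mem_interior_iff_mem_nhds.1 hd))
    obtain ⟨R, hR, A', hA, d1', i1, i2, i3⟩ := hK s (k / 64) k1 k2 hs (by positivity) s1 s2 w1 w2
      d.1.1 d.1.2 σ b m' ν
      (max N (64 * Real.log 4 / k)) hν
    obtain ⟨d', ⟨-, W', hW', k0'⟩, e'⟩ := j1 ⟨d1', i1⟩ i2.le
    have e3 : d1' = d'.1.1 := (congrArg Subtype.val e').symm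
    subst e3
    have hN : N ≤ R := (le_max_left _ _).trans hR
    have A0' : 0 < A' := (Real.exp_pos _).trans_le hA
    have wR := hw.pos R
    obtain ⟨n, hn⟩ := exists_nat_ge (|p| + r + |R| + 1)
    have cmpw : ∀ x y, |y - x| ≤ 8 → w y ≤ w x * E := fun x y h =>
      (P354X.wt_le hw x y).trans (mul_le_mul_of_nonneg_left (Real.exp_le_exp.2 (by nlinarith))
        (hw.pos x).le)
    obtain ⟨S, k6, k7⟩ := near2 hG (x1 := R - 8) (a1 := w R * E) (Z := E / w R) (M := |Λ| * A')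
      (hI σ) (hB σ).smooth.1 hδ d1 hc hW hW' (sm d σ) (sm d' σ) b n hn (h0.2.1.trans hN) h0.2.2
      (by linarith) (by positivity) (fun z hz => Or.inr (i3.zero z hz))
      (fun i z h1 h2 α h3 h4 => (i3.bound i α h3 h4 z h1 h2).trans
        (mul_le_mul_of_nonneg_right (le_abs_self _) A0'.le))
      (fun y hy => by
        rw [div_le_div_iff₀ (hw.pos y) wR, one_mul, mul_comm]
        exact cmpw y R (abs_le.2 ⟨by linarith [hy.2], by linarith [hy.1]⟩))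
      (fun y hy => cmpw R y (abs_le.2 ⟨by linarith [hy.1], by linarith [hy.2]⟩)) (by positivity)
      (half_pos A0')
    refine two (A := A' / 2) h0.1 (by positivity) i3.low (fun _ h => h.1)
      (k6.trans (ENNReal.ofReal_le_ofReal ((le_of_eq ?_).trans
        (h2 μ μ0'.le (min_le_right _ _)).1))) ?_ (fun x hx => ?_) (k0 R hN) (k0' R hN)
    · field_simp
      ring
    · have j2 : Real.log 4 ≤ k / 64 * R := by
        have := (div_le_iff₀ hk).1 ((le_max_right _ _).trans hR)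
        linarith
      have k3 : Real.exp (-(k / 32 * R) + Real.log 4) ≤ Real.exp (-(k / 64) * R) :=
        Real.exp_le_exp.2 (by linarith)
      rw [Real.exp_add, Real.exp_log (by norm_num)] at k3
      linarith
    · have k8 := k7 x ⟨hx.1, ⟨hx.2.1.1.1, hx.2.1.2⟩, hx.2.2⟩
      have k9 := hx.2.1.1.2 _ (h0.2.2 _ hx.2.2)
      have k10 := abs_sub_abs_le_abs_sub
        (Ud d'.1.1 σ (sgn b * cv x, x.2.2) (cpt b) - Ud d.1.1 σ (sgn b * cv x, x.2.2) (cpt b))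
        (ph (K σ) b W' x - ph (K σ) b W x)
      rw [abs_sub_comm _ (ph (K σ) b W' x - ph (K σ) b W x)] at k10
      linarith
  refine IsMeagre.mono (s := ⋃ q : Bool × Bool × (ℚ × ℚ × ℚ × ℚ) × ℕ, Bad q.1 q.2.1 q.2.2.1.1
    (q.2.2.1.2.1, q.2.2.1.2.2.1) q.2.2.1.2.2.2 q.2.2.2) (fun d hd => ?_)
    (isMeagre_iUnion fun q => ((closed ..).isNowhereDense_iff.2 (thin ..)).isMeagre)
  simp only [Blow2, mem_ofPred_eq, not_forall, not_and_or] at hd
  obtain ⟨σ, W, hW, hd | hd⟩ := hd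
  · obtain ⟨q, h4, h5⟩ := of_not_bu (F := ph (K σ) true W) (fun x => by
      rw [pt_true]
      exact le_add_of_nonneg_right (abs_nonneg _)) hd
    exact mem_iUnion.2 ⟨(σ, true, q), h4, W, hW, h5⟩
  · obtain ⟨q, h4, h5⟩ := of_not_bu (F := ph (K σ) false W) (fun x => by
      rw [pt_false]
      exact le_add_of_nonneg_right (abs_nonneg _)) hd
    exact mem_iUnion.2 ⟨(σ, false, q), h4, W, hW, h5⟩

end Vale.Agent.P354DG
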