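import Vale.Agent.P354DG.Gen
import Vale.Agent.P354D.Main
import Vale.Agent.P354J.Lip

/-!
GEN from KICK.
-/

namespace Vale.Agent.P354DG

theorem gen (h : P354D.KICK) : P354I.GEN := gen_of P354D.diff P354J.lip h

end Vale.Agent.P354DG
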