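import Vale.Agent.P354DG.Gen2
import Vale.Agent.P354E2.Diff
import Vale.Agent.P354E2.Glue

/-!
GEN2 from MIX, LIP2 and KICK2.
-/

namespace Vale.Agent.P354DG

theorem gen2 (hX : P354I.MIX) (hL : P354I.LIP2) (hK : P354I.KICK2) : P354I.GEN2 :=
  gen2_of P354E2.diff2 P354E2.glue2 hX hL hK

end Vale.Agent.P354DG
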