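import Vale.Agent.P354D.Diff
import Vale.Agent.P354IN.Main
import Vale.Agent.P354IG.Glue

/-!
The difference estimate in boxes.
-/

open scoped ContDiff ENNReal
open MeasureTheory Set Filter Topology

noncomputable section

namespace Vale.Agent.P354DG

open Vale.Agent.P354n (R4 cu cv)
open Vale.Agent.P354H (X3 pdl pd e pd_sm pdl_add pdl_zero dif)
open Vale.Agent.P354C (Ix SmU)
open Vale.Agent.P354I (Fam r2 cx cy wd glue)
open Vale.Agent.P354J (Bd)
open Vale.Agent.P354D (sgn cpt)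

/-! ### Angular derivatives -/

/-- The angular derivatives of order at most m at z are bounded by c. -/
def Ba (m : ℕ) (f : X3 → ℝ) (z : X3) (c : ℝ) : Prop :=
  ∀ α : List (Fin 3), α.length ≤ m → (0 : Fin 3) ∉ α → |pdl α f z| ≤ c

theorem pd_mul (j : Fin 3) {f g : X3 → ℝ} (hf : ContDiff ℝ ∞ f) (hg : ContDiff ℝ ∞ g) :
    pd j (fun y => f y * g y) = (fun y => pd j f y * g y) + fun y => f y * pd j g y := by
  funext x
  simp only [pd, fderiv_fun_mul (dif hf x) (dif hg x), add_apply,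
    smul_apply, smul_eq_mul, Pi.add_apply]
  ring

theorem Ba.zero {m : ℕ} {f : X3 → ℝ} {z : X3} {c : ℝ} (h : Ba m f z c) : |f z| ≤ c :=
  h [] (Nat.zero_le _) (by simp)

theorem Ba.low {m : ℕ} {f : X3 → ℝ} {z : X3} {c : ℝ} (h : Ba (m + 1) f z c) : Ba m f z c :=
  fun α h1 h2 => h α (h1.trans (Nat.le_succ _)) h2

theorem Ba.pd {m : ℕ} {f : X3 → ℝ} {z : X3} {c : ℝ} (h : Ba (m + 1) f z c) {j : Fin 3}
    (hj : (0 : Fin 3) ≠ j) : Ba m (pd j f) z c :=
  fun α h1 h2 => h (j :: α) (Nat.succ_le_succ h1) (by simp [hj, h2])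

theorem Ba.mul (m : ℕ) {z : X3} {c d : ℝ} : ∀ {f g : X3 → ℝ}, ContDiff ℝ ∞ f → ContDiff ℝ ∞ g →
    Ba m f z c → Ba m g z d → Ba m (fun y => f y * g y) z (2 ^ m * (c * d)) := by
  have key : ∀ {m : ℕ} {f g : X3 → ℝ}, Ba m f z c → Ba m g z d → |f z * g z| ≤ 2 ^ m * (c * d) :=
    fun {m f g} h h' => by
      have h1 : |f z * g z| ≤ c * d := by
        rw [abs_mul]
        exact mul_le_mul h.zero h'.zero (abs_nonneg _) ((abs_nonneg _).trans h.zero)
      exact h1.trans (le_mul_of_one_le_left ((abs_nonneg _).trans h1) (one_le_pow₀ one_le_two))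
  induction m with
  | zero =>
    intro f g _ _ h h' α h1 _
    obtain rfl := List.length_eq_zero_iff.1 (Nat.le_zero.1 h1)
    exact key h h'
  | succ m ih =>
    intro f g hf hg h h' α h1 h2
    cases α with
    | nil => exact key h h'
    | cons j α =>
      simp only [List.mem_cons, not_or] at h2
      have h3 := Nat.le_of_succ_le_succ h1
      have a1 := ih (pd_sm j hf) hg (h.pd h2.1) h'.low α h3 h2.2
      have a2 := ih hf (pd_sm j hg) h.low (h'.pd h2.1) α h3 h2.2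
      rw [pdl, pd_mul j hf hg, pdl_add α ((pd_sm j hf).mul hg) (hf.mul (pd_sm j hg)), Pi.add_apply,
        pow_succ]
      linarith [abs_add_le (pdl α (fun y => P354H.pd j f y * g y) z)
        (pdl α (fun y => f y * P354H.pd j g y) z)]

theorem cx_sm (n : ℕ) : ContDiff ℝ ∞ (cx n) :=
  (Real.smoothTransition.contDiff.comp (contDiff_const.sub contDiff_id)).mul
    (Real.smoothTransition.contDiff.comp (contDiff_const.add contDiff_id))

theorem cx_zero {n : ℕ} {x : ℝ} (h : n + 1 ≤ |x|) : cx n x = 0 := by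
  unfold cx
  rcases le_abs.1 h with h | h
  · rw [Real.smoothTransition.zero_of_nonpos (by linarith), zero_mul]
  · rw [Real.smoothTransition.zero_of_nonpos (x := n + 1 + x) (by linarith), mul_zero]

theorem ba_cx (m n : ℕ) (z : X3) : Ba m (fun y => cx n y.1) z 1 := by
  intro α _ h2
  cases α with
  | nil =>
    show |cx n z.1| ≤ 1
    unfold cx
    rw [abs_of_nonneg (mul_nonneg (Real.smoothTransition.nonneg _) (Real.smoothTransition.nonneg _))]
    exact mul_le_one₀ (Real.smoothTransition.le_one _) (Real.smoothTransition.nonneg _)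
      (Real.smoothTransition.le_one _)
  | cons j α =>
    simp only [List.mem_cons, not_or] at h2
    have e1 : pd j (fun y : X3 => cx n y.1) = 0 := by
      funext y
      have h3 := (((cx_sm n).differentiable (by simp)) y.1).hasFDerivAt.comp y
        (hasFDerivAt_fst (𝕜 := ℝ) (p := y))
      have h4 : (e j).1 = 0 := by
        fin_cases j
        · exact absurd rfl h2.1
        · rfl
        · rfl
      show fderiv ℝ (cx n ∘ Prod.fst) y (e j) = 0
      rw [h3.fderiv]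
      simp [h4]
    rw [pdl, e1, pdl_zero]
    simp

theorem cy_one {z : X3} (h : r2 z ≤ 9) : cy z = 1 :=
  Real.smoothTransition.one_of_one_le (by linarith)

theorem abs_sgn (b : Bool) (x : ℝ) : |sgn b * x| = |x| := by
  cases b <;> simp [sgn]

/-! ### Boxes -/

/-- The point with the coordinates (tau, x, theta). -/
def pt (b : Bool) (x : R4) : R4 :=
  ((cu x + cv x) / 2, sgn b * (cv x - (cu x + cv x) / 2), x.2.2)

/-- The component which is compared. -/
def ph (K : R4 → Ix → ℝ) (b : Bool) (W : ℕ → R4 → Ix → ℝ) (x : R4) : ℝ :=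
  (K + glue W) (pt b x) (cpt b)

def Bx (p : ℝ) (θ : ℝ × ℝ) (r : ℝ) (S : Set ℝ) : Set R4 :=
  {x | |cu x - p| < r ∧ cv x ∈ S ∧ ‖x.2.2 - θ‖ < r}

def B0 (p : ℝ) (θ : ℝ × ℝ) (r : ℝ) : ℝ≥0∞ := volume (Metric.ball p r) * volume (Metric.ball θ r)

theorem vol_Bx (p : ℝ) (θ : ℝ × ℝ) (r : ℝ) (S : Set ℝ) :
    volume (Bx p θ r S) = B0 p θ r * volume S := by
  have e1 : Bx p θ r S = Metric.ball p r ×ˢ (S ×ˢ Metric.ball θ r) := by
    ext x
    simp only [Bx, cu, cv, mem_ofPred_eq, mem_prod, Metric.mem_ball, dist_eq_norm, Real.norm_eq_abs]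
  rw [e1, Measure.volume_eq_prod, Measure.prod_prod, Measure.volume_eq_prod, Measure.prod_prod, B0]
  ring

theorem B0_ne_zero (p : ℝ) (θ : ℝ × ℝ) {r : ℝ} (h : 0 < r) : B0 p θ r ≠ 0 :=
  mul_ne_zero (Metric.measure_ball_pos _ _ h).ne' (Metric.measure_ball_pos _ _ h).ne'

theorem B0_ne_top (p : ℝ) (θ : ℝ × ℝ) (r : ℝ) : B0 p θ r ≠ ⊤ :=
  ENNReal.mul_ne_top measure_ball_lt_top.ne measure_ball_lt_top.ne

/-- The difference estimate for the background K with the constant Γ. -/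
def DI (k : ℝ) (a : ℝ → ℝ) (ε δ cb : ℝ) (K : R4 → Ix → ℝ) (Γ : ℝ) : Prop :=
  ∀ (w0 w0' : X3 → Ix → ℝ) (w w' : ℕ → R4 → Ix → ℝ),
    Fam k a ε δ cb K w0 w → Fam k a ε δ cb K w0' w' →
      ∀ (b : Bool) (n : ℕ) (T x1 R M Z : ℝ), 0 ≤ T → x1 ≤ R + 2 → 0 ≤ M →
        (∀ z : X3, sgn b * z.1 ≤ x1 ∨ 16 ≤ r2 z → w' n (0, z) = w n (0, z)) →
        (∀ i (α : List (Fin 3)), α.length ≤ 4 → (0 : Fin 3) ∉ α → ∀ z : X3, sgn b * z.1 ≤ R + 2 →
          |pdl α (fun y => w' n (0, y) i - w n (0, y) i) z| ≤ M) →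
        (∀ y ∈ Icc x1 (R + 2), 1 / a y ≤ Z) →
        ∃ H : ℝ → ℝ, Continuous H ∧ HasCompactSupport H ∧ (∀ y, 0 ≤ H y) ∧
          (∀ y ≤ R + 1, ∀ θ : ℝ × ℝ, ∀ t ∈ Icc 0 T,
            ((w' n (t, sgn b * (y - t), θ) (cpt b) - w n (t, sgn b * (y - t), θ) (cpt b)) -
              (w' n (0, sgn b * y, θ) (cpt b) - w n (0, sgn b * y, θ) (cpt b))) ^ 2 ≤ a y * H y) ∧
          ∫ y, H y ≤ Γ * (M ^ 2 * Z * (R + 2 - x1))

/-- Outside a small set of values of v the difference of the solutions is close to the difference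
of the initial values. -/
theorem near {k ε δ cb Γ c1 : ℝ} {a : ℝ → ℝ} {K : R4 → Ix → ℝ} (hD : DI k a ε δ cb K Γ)
    (hK : SmU K univ) (hδ : 0 < δ) (c0 : 0 ≤ c1) (hc : ∀ z : X3, ‖z.2‖ ≤ 4 → Bd 4 cy z c1)
    {u u' : X3 → Ix → ℝ} {W W' : ℕ → R4 → Ix → ℝ} (hW : Fam k a ε δ cb K (wd K u) W)
    (hW' : Fam k a ε δ cb K (wd K u') W') (su : ∀ i, ContDiff ℝ ∞ fun z => u z i)
    (su' : ∀ i, ContDiff ℝ ∞ fun z => u' z i) (b : Bool) (n : ℕ) {p r R x1 M Z a1 l : ℝ}
    {θ : ℝ × ℝ} (hn : |p| + r + |R| + 1 ≤ n) (h0 : r - p ≤ R)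
    (hθ : ∀ y : ℝ × ℝ, ‖y - θ‖ < r → y.1 ^ 2 + y.2 ^ 2 ≤ 2) (hx : x1 ≤ R + 2) (hM : 0 ≤ M)
    (hz : ∀ z : X3, sgn b * z.1 ≤ x1 → cx n z.1 = 0 ∨ u' z = u z)
    (hb : ∀ i (z : X3), sgn b * z.1 ≤ R + 2 → r2 z ≤ 16 → Ba 4 (fun y => u' y i - u y i) z M)
    (hZ : ∀ y ∈ Icc x1 (R + 2), 1 / a y ≤ Z) (ha : ∀ y ∈ Ioo R (R + 1), a y ≤ a1) (a0 : 0 ≤ a1)
    (hl : 0 < l) :
    ∃ S : Set ℝ, volume S ≤
        ENNReal.ofReal (a1 / l ^ 2 * (Γ * ((256 * c1 * M) ^ 2 * Z * (R + 2 - x1)))) ∧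
      ∀ x ∈ Bx p θ r (Ioo R (R + 1) \ S), |ph K b W' x - ph K b W x -
        (u' (sgn b * cv x, x.2.2) (cpt b) - u (sgn b * cv x, x.2.2) (cpt b))| < l := by
  have e1 : ∀ y i, W' n (0, y) i - W n (0, y) i = cx n y.1 * (cy y * (u' y i - u y i)) :=
    fun y i => by
      rw [hW.init, hW'.init]
      simp only [Pi.smul_apply, smul_eq_mul, wd]
      ring
  obtain ⟨H, H1, H2, H3, H4, H5⟩ := hD _ _ _ _ hW hW' b n n x1 R (256 * c1 * M) Z
    (Nat.cast_nonneg _) hx (by positivity) (fun z h => by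
      funext i
      rw [← sub_eq_zero, e1]
      rcases h with h | h
      · rcases hz z h with h | h <;> simp [h]
      · simp [P354IN.cy_zero h]) (fun i α h1 h2 z h3 => by
      simp only [e1]
      by_cases h4 : r2 z ≤ 16
      · refine (Ba.mul 4 ((cx_sm n).comp contDiff_fst) (P354IN.cy_sm.mul ((su' i).sub (su i)))
          (ba_cx 4 n z) (Ba.mul 4 P354IN.cy_sm ((su' i).sub (su i))
            (fun β h _ => hc z (P354IN.norm_le h4) β h) (hb i z h3 h4)) α h1 h2).trans (le_of_eq ?_)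
        ring
      · have h5 : (fun y : X3 => cx n y.1 * (cy y * (u' y i - u y i))) =ᶠ[𝓝 z] 0 := by
          filter_upwards [(isOpen_lt continuous_const P354IN.r2_cont).mem_nhds (not_le.1 h4)]
            with y hy
          simp [P354IN.cy_zero (le_of_lt hy)]
        rw [P354IN.pdl_ev α h5, pdl_zero]
        simp only [Pi.zero_apply, abs_zero]
        positivity) hZ
  refine ⟨{y | l ^ 2 ≤ a1 * H y}, ?_, fun x hx => ?_⟩
  · refine (((H1.integrable_of_hasCompactSupport H2).const_mul (a1 / l ^ 2)).measure_le_integral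
      (Eventually.of_forall fun y => mul_nonneg (by positivity) (H3 y)) fun y hy => ?_).trans
      (ENNReal.ofReal_le_ofReal ?_)
    · rw [div_mul_eq_mul_div, le_div_iff₀ (by positivity), one_mul]
      exact hy
    · rw [integral_const_mul]
      exact mul_le_mul_of_nonneg_left H5 (by positivity)
  · obtain ⟨x1, ⟨x2, x3⟩, x4⟩ := hx
    have y1 := abs_lt.1 x1
    have y2 := le_abs_self p
    have y3 := neg_abs_le p
    have y4 := le_abs_self R
    have y5 := neg_abs_le R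
    have y6 := x2.1
    have y7 := x2.2
    have r0 : 0 < r := (abs_nonneg _).trans_lt x1
    have t0 : 0 ≤ (cu x + cv x) / 2 := by linarith [y1.1]
    have g1 : ∀ {w0 V}, Fam k a ε δ cb K w0 V → glue V (pt b x) = V n (pt b x) := fun hV =>
      P354IG.glue _ _ _ _ _ _ _ _ hK hV n _ (by simp only [pt]; linarith) (by
        simp only [pt]
        rw [abs_sgn, abs_of_nonneg t0]
        have : |cv x - (cu x + cv x) / 2| < n - (cu x + cv x) / 2 :=
          abs_lt.2 ⟨by linarith [y1.1, y1.2], by linarith [y1.1, y1.2]⟩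
        linarith)
    have h1 := H4 (cv x) y7.le x.2.2 _ ⟨t0, by linarith [y1.2, abs_nonneg p, abs_nonneg R]⟩
    rw [e1, P354IG.cx_one (by
      rw [abs_sgn]
      exact abs_le.2 ⟨by linarith [abs_nonneg p], by linarith [abs_nonneg p]⟩),
      cy_one (z := (sgn b * cv x, x.2.2)) (le_trans (hθ _ x4) (by norm_num)), one_mul,
      one_mul] at h1
    have h2 : a (cv x) * H (cv x) < l ^ 2 :=
      (mul_le_mul_of_nonneg_right (ha _ x2) (H3 _)).trans_lt (not_le.1 x3)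
    refine abs_lt_of_sq_lt_sq (lt_of_eq_of_lt ?_ (h1.trans_lt h2)) hl.le
    simp only [ph, Pi.add_apply, g1 hW, g1 hW']
    rw [add_sub_add_left_eq_sub]
    rfl

end Vale.Agent.P354DG
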